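import Vale.Agent.P310.WLDefs

/-!
# P310: multitape Turing machines with tapes and heads
-/

namespace Vale.Agent.P310T

open Vale.Agent.P310

/-- Head moves. -/
inductive Move : Type
  | left
  | stay
  | right

/-- A deterministic multitape Turing machine: a finite alphabet with a blank symbol and symbols for
the two bits, finitely many tapes, finitely many states. `step q r` is the action in the state `q`
when the symbols under the heads are `r`: `none` means that the machine has halted, `some (q', a)`
means that the state becomes `q'` and that on the tape `i` the symbol `(a i).1` is written and the
head makes the move `(a i).2`. The tapes are infinite in both directions, or, if `oneWay` is true,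
only to the right. -/
structure TM where
  /-- the alphabet -/
  Sym : Type
  /-- the index set of the tapes -/
  Tape : Type
  /-- the states -/
  State : Type
  finSym : Finite Sym
  finTape : Finite Tape
  finState : Finite State
  /-- the tapes have a leftmost cell -/
  oneWay : Bool
  /-- the blank symbol -/
  blank : Sym
  /-- the symbols for the bits -/
  bit : Bool → Sym
  bit_inj : Function.Injective bit
  bit_ne_blank : ∀ b, bit b ≠ blank
  /-- the input tape -/
  inp : Tape
  /-- the initial state -/
  start : State
  /-- the accepting states -/
  accept : Set State
  /-- the transition function -/
  step : State → (Tape → Sym) → Option (State × (Tape → Sym × Move))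

/-- The new head position after a move; on one-way infinite tapes a move to the left from the
cell `0` has no effect. -/
def Move.app (oneWay : Bool) : Move → ℤ → ℤ
  | .left, p => if oneWay = true ∧ p = 0 then p else p - 1
  | .stay, p => p
  | .right, p => p + 1

namespace TM

/-- Configurations: the state, the contents of the tapes and the head positions. -/
structure Conf (A : TM) where
  /-- the state -/
  state : A.State
  /-- the contents of the tapes -/
  tape : A.Tape → ℤ → A.Sym
  /-- the head positions -/
  head : A.Tape → ℤ

/-- The action of the machine in a configuration. -/
def act (A : TM) (c : A.Conf) : Option (A.State × (A.Tape → A.Sym × Move)) :=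
  A.step c.state fun i => c.tape i (c.head i)

/-- The next configuration (the same one if the machine has halted). -/
def next (A : TM) (c : A.Conf) : A.Conf :=
  match A.act c with
  | none => c
  | some (q, a) =>
    { state := q
      tape := fun i => Function.update (c.tape i) (c.head i) (a i).1
      head := fun i => (a i).2.app A.oneWay (c.head i) }

open Classical in
/-- The initial configuration: the input word is written in the cells `0, 1, …` of the input tape,
all other cells are blank, all heads are on the cell `0`. -/
noncomputable def init (A : TM) (w : List Bool) : A.Conf :=
  { state := A.start
    tape := fun i p =>
      if i = A.inp ∧ 0 ≤ p then ((w[p.toNat]?).map A.bit).getD A.blank else A.blank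
    head := fun _ => 0 }

/-- The configuration after `t` steps on the input `w`. -/
noncomputable def conf (A : TM) (w : List Bool) (t : ℕ) : A.Conf := A.next^[t] (A.init w)

/-- The number of steps until the machine halts on the input `w`. -/
noncomputable def time (A : TM) (w : List Bool) : ℕ := sInf {t | A.act (A.conf w t) = none}

/-- The machine decides `≡_k`: on the adjacency matrices of any two graphs with the same number of
vertices it halts, in an accepting state iff the graphs are `k`-WL equivalent. -/
def Decides (A : TM) (k : ℕ) : Prop :=
  ∀ (n : ℕ) (G H : SimpleGraph (Fin n)), ∃ t, A.act (A.conf (inputWord G H) t) = none ∧
    ((A.conf (inputWord G H) t).state ∈ A.accept ↔ WLEquiv k G H)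

/-- `T_A(n)`: the worst-case running time over pairs of graphs with `n` vertices each. -/
noncomputable def worst (A : TM) (n : ℕ) : ℕ :=
  sSup {t | ∃ G H : SimpleGraph (Fin n), t = A.time (inputWord G H)}

end TM

end Vale.Agent.P310T
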