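import Vale.Agent.P310Z.Main

/-! The loop which lists all `k`-tuples and then calls a polynomial time decision procedure. -/

set_option linter.all false

namespace Vale.Agent.P310T

open Function Vale.Agent.P310 Vale.Agent.P310Z Vale.Agent.Lib.PolyTime

/-- all lists of length `k` with entries below `n` -/
def tup (n : ℕ) : ℕ → List (List ℕ)
  | 0 => [[]]
  | k + 1 => (tup n k).flatMap fun t => (List.range n).map (· :: t)

theorem length_tup (n k : ℕ) : (tup n k).length = n ^ k := by
  induction k with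
  | zero => rfl
  | succ k ih => simp [tup, List.length_flatMap, ih, pow_succ]

theorem esize_mem_tup (n k : ℕ) : ∀ t ∈ tup n k, esize t ≤ k * (2 * n + 1) := by
  induction k with
  | zero =>
    intro t ht
    simp only [tup, List.mem_singleton] at ht
    subst ht
    simp [esize_list_nil]
  | succ k ih =>
    intro t ht
    simp only [tup, List.mem_flatMap, List.mem_map, List.mem_range] at ht
    obtain ⟨u, hu, a, ha, rfl⟩ := ht
    have h1 := ih u hu
    have h2 := esize_nat_le_self a
    rw [esize_list_cons, add_mul]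
    omega

/-- states of the loop -/
abbrev LSt := Raw × ℕ × List (List ℕ)

/-- start -/
def linit (y : Un × Raw) : LSt := (y.2, y.1.v, [[]])

/-- one more coordinate -/
def lstep (u : LSt) : LSt :=
  (u.1, u.2.1 - 1, u.2.2.flatMap fun t => (List.range (unum u.1.w.length)).map (· :: t))

/-- nonempty code iff the loop goes on -/
def lflag (u : LSt) : Option Unit := if 0 < u.2.1 then some () else none

theorem pt_linit : PT ∅ linit :=
  PT.snd'.pair ((PT.unVal PT.fst').pair (PT.const _))

theorem pt_unum : PT ∅ fun x : Raw => unum x.w.length := by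
  have hl : PT ∅ fun x : Raw => x.w.length := PT.rawLength PT.id
  have hlb : PBd fun x : Raw => x.w.length := (PT.id (A := ∅)).pbd
  exact (PT.find? (f := fun (x : Raw) (n : ℕ) => decide (2 * (n * n) = x.w.length))
    (PT.range (hl.add (PT.const 1)) (hlb.add (PBd.const 1)))
    (PT.eqNat (PT.double (PT.snd'.mul PT.snd')) (hl.comp PT.fst'))).optGetD (PT.const 0)

theorem pt_lstep : PT ∅ lstep := by
  have hb : PBd fun x : Raw => unum x.w.length :=
    (PT.id (A := ∅)).pbd.mono fun x => unum_le _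
  have hr : PT ∅ fun x : Raw => List.range (unum x.w.length) := PT.range pt_unum hb
  refine PT.fst'.pair ((PT.snd'.fst.sub (PT.const 1)).pair ?_)
  refine PT.flatMap (f := fun (u : LSt) (t : List ℕ) =>
    (List.range (unum u.1.w.length)).map (· :: t)) PT.snd'.snd ?_
  exact PT.map (f := fun (p : LSt × List ℕ) (a : ℕ) => a :: p.2) (hr.comp PT.fst'.fst)
    (PT.cons PT.snd' PT.fst'.snd)

theorem pt_lflag : PT ∅ lflag :=
  PT.ite ((PT.const 0).lt PT.snd'.fst) (PT.const _) (PT.const _)

theorem lstep_iter {n : ℕ} {x : Word} (hx : x.length = 2 * (n * n)) (k j : ℕ) :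
    lstep^[j] (linit (⟨k⟩, ⟨x⟩)) = (⟨x⟩, k - j, tup n j) := by
  induction j with
  | zero => rfl
  | succ j ih =>
    rw [iterate_succ_apply', ih, lstep]
    simp only [hx, unum_eq, tup, Nat.sub_sub]

theorem exists_prog {dec : Raw → List (List ℕ) → Bool}
    (hd : PT ∅ fun p : Raw × List (List ℕ) => dec p.1 p.2) :
    ∃ C : ℕ, ∀ k : ℕ, 2 ≤ k → ∃ (p : Prog) (D : ℕ), ∀ (n : ℕ) (x : Word),
      x.length = 2 * (n * n) → ∃ σ, Runs ∅ p (start x []) (D * (n + 2) ^ (C * k)) σ ∧
        ((σ 1).head? = some true ↔ dec ⟨x⟩ (tup n k) = true) := by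
  obtain ⟨I, hI, eI⟩ := pt_linit
  obtain ⟨S, hS, eS⟩ := pt_lstep
  obtain ⟨F, hF, eF⟩ := pt_lflag
  obtain ⟨O, hO, eO⟩ : PT ∅ fun u : LSt => dec u.1 u.2.2 := hd.comp (PT.fst'.pair PT.snd'.snd)
  obtain ⟨U, T₀, ⟨c, hc⟩, hU⟩ := exists_while hI hS hF hO
  refine ⟨2 * c, fun k hk => ⟨.seq (pushAll (pr (enc (Un.mk k)) [])) U,
    2 * k + 2 + (8 * k + 11) ^ c, fun n x hx => ?_⟩⟩
  set y : Un × Raw := (⟨k⟩, ⟨x⟩) with hy
  set z := (n + 2) ^ (k + 2) with hz
  have hz1 : (n + 2) ^ k * (n + 2) ≤ z := by
    rw [hz, ← pow_succ]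
    exact Nat.pow_le_pow_right (by omega) (by omega)
  have hz2 : (n + 2) ^ 2 ≤ z := Nat.pow_le_pow_right (by omega) (by omega)
  have hz3 : n * n + 1 ≤ z := le_trans (by nlinarith) hz2
  have hkz : k ≤ k * z := Nat.le_mul_of_pos_right _ (by omega)
  have ey : esize y ≤ (8 * k + 9) * z := by
    rw [hy, esize_pair, esize_raw, esize_un, add_mul, mul_assoc]
    simp only
    omega
  have eit : ∀ j, S^[j] (I (enc y)) = enc (lstep^[j] (linit y)) := fun j => by
    induction j with
    | zero => exact eI y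
    | succ j ih => rw [iterate_succ_apply', iterate_succ_apply', ih, eS]
  obtain ⟨σ, r, hσ⟩ := hU (enc y) k ((8 * k + 9) * z) ey
    (by rw [add_mul, mul_assoc]; omega)
    (fun j hj => by
      rw [eit, eF, lstep_iter hx, lflag, if_pos (by simp only; omega)]
      exact List.cons_ne_nil _ _)
    (by rw [eit, eF, lstep_iter hx, lflag, if_neg (by simp)]; rfl)
    (fun j hj => by
      rw [eit, lstep_iter hx]
      show esize _ ≤ _
      have t1 := esize_list_le (esize_mem_tup n j)
      rw [length_tup] at t1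
      have t2 : n ^ j ≤ (n + 2) ^ k :=
        (Nat.pow_le_pow_left (by omega) j).trans (Nat.pow_le_pow_right (by omega) hj)
      have t3 : 2 * (j * (2 * n + 1)) + 1 ≤ (n + 2) * (4 * k + 1) := by
        have := Nat.mul_le_mul_right (2 * n + 1) hj
        nlinarith
      have t4 : esize (tup n j) ≤ z * (4 * k + 1) :=
        t1.trans ((Nat.mul_le_mul t2 t3).trans
          (by rw [← mul_assoc]; exact Nat.mul_le_mul_right _ hz1))
      have t5 := esize_nat_le_self (k - j)
      rw [esize_pair, esize_pair, esize_raw]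
      simp only
      have t6 : z * (4 * k + 1) = 4 * (k * z) + z := by ring
      have t7 : (8 * k + 9) * z = 8 * (k * z) + 9 * z := by ring
      omega)
  have r0 := runs_pushAll (pr (enc (Un.mk k)) []) x
  rw [show pr (enc (Un.mk k)) [] ++ x = enc y by
    show _ = pr (enc (Un.mk k)) x
    rw [pr_eq _ [], pr_eq _ x, List.append_assoc]; rfl] at r0
  refine ⟨σ, (r0.seq r).mono ?_, ?_⟩
  · rw [length_pr, List.length_nil, show (enc (Un.mk k)).length = k from esize_un _]
    have h1 : T₀ ((8 * k + 9) * z) ≤ (8 * k + 11) ^ c * (n + 2) ^ (2 * c * k) := by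
      refine (hc _).trans ?_
      have h2 : (8 * k + 9) * z + 2 ≤ (8 * k + 11) * (n + 2) ^ (2 * k) := by
        have h3 : z ≤ (n + 2) ^ (2 * k) := Nat.pow_le_pow_right (by omega) (by omega)
        nlinarith
      refine (Nat.pow_le_pow_left h2 c).trans (le_of_eq ?_)
      rw [mul_pow, ← pow_mul]
      congr 2
      ring
    have h4 : 1 ≤ (n + 2) ^ (2 * c * k) := Nat.one_le_pow _ _ (by omega)
    have h5 := Nat.mul_le_mul_left (2 * k + 2) h4
    rw [add_mul (2 * k + 2)]
    omega
  · rw [hσ, eit, eO, lstep_iter hx]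
    simp [enc_bool]

end Vale.Agent.P310T
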