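import Vale.Agent.P310T.ToStk
import Vale.Agent.P310Z.Main

/-! The lower bound for tape machines; worst-case time. -/

set_option linter.all false

namespace Vale.Agent.P310T

open Function Filter Turing Vale.Agent.P310 Vale.Agent.P310Z

variable {A : TM}

theorem conf_add {w : List Bool} {t : ℕ} (h : A.act (A.conf w t) = none) (d : ℕ) :
    A.conf w (d + t) = A.conf w t := by
  unfold TM.conf at *
  rw [iterate_add_apply, iterate_fixed]
  simp only [TM.next, h]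

theorem time_spec {w : List Bool} {t : ℕ} (h : A.act (A.conf w t) = none) :
    A.time w ≤ t ∧ A.act (A.conf w (A.time w)) = none ∧
      (∀ s < A.time w, A.act (A.conf w s) ≠ none) ∧ A.conf w (A.time w) = A.conf w t := by
  have h1 : A.time w ≤ t := Nat.sInf_le (s := {t | A.act (A.conf w t) = none}) h
  have h2 : A.act (A.conf w (A.time w)) = none :=
    Nat.sInf_mem (s := {t | A.act (A.conf w t) = none}) ⟨t, h⟩
  refine ⟨h1, h2, fun s hs => Nat.notMem_of_lt_sInf hs, ?_⟩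
  obtain ⟨d, rfl⟩ := Nat.exists_eq_add_of_le' h1
  exact (conf_add h2 d).symm

theorem bdd_times (A : TM) (n : ℕ) :
    BddAbove {t | ∃ G H : SimpleGraph (Fin n), t = A.time (inputWord G H)} := by
  refine ((Set.finite_range fun p : SimpleGraph (Fin n) × SimpleGraph (Fin n) =>
    A.time (inputWord p.1 p.2)).subset ?_).bddAbove
  rintro _ ⟨G, H, rfl⟩
  exact ⟨(G, H), rfl⟩

theorem time_le_worst {n : ℕ} (G H : SimpleGraph (Fin n)) : A.time (inputWord G H) ≤ A.worst n :=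
  le_csSup (bdd_times A n) ⟨G, H, rfl⟩

theorem worst_le {n B : ℕ} (h : ∀ G H : SimpleGraph (Fin n), A.time (inputWord G H) ≤ B) :
    A.worst n ≤ B := by
  refine csSup_le ⟨_, ⊥, ⊥, rfl⟩ ?_
  rintro _ ⟨G, H, rfl⟩
  exact h G H

/-- The worst-case time is attained. -/
theorem worst_attained (A : TM) (n : ℕ) :
    ∃ G H : SimpleGraph (Fin n), A.worst n = A.time (inputWord G H) :=
  Nat.sSup_mem (s := {t | ∃ G H : SimpleGraph (Fin n), t = A.time (inputWord G H)})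
    ⟨_, ⊥, ⊥, rfl⟩ (bdd_times A n)

theorem decidable_of_decides {k : ℕ} (h : A.Decides k) :
    DecidableInTime k fun n => A.worst n + 1 := by
  obtain ⟨B, inp, yes, hB⟩ := exists_stack A
  refine Or.inl ⟨B, inp, yes, fun n G H => ?_⟩
  obtain ⟨t, ht, hacc⟩ := h n G H
  obtain ⟨-, h2, h3, h4⟩ := time_spec ht
  obtain ⟨c, e1, e2, e3⟩ := hB _ _ h2 h3
  exact ⟨_, Nat.succ_le_succ (time_le_worst G H), c, e1, e2, by rw [e3, h4, hacc]⟩

theorem lower : ∃ c : ℝ, 0 < c ∧ ∃ k₀ : ℕ, ∀ k : ℕ, k₀ ≤ k → ∀ T : ℕ → ℕ,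
    ((∃ A : TM, A.Decides k ∧ T = A.worst) ∨ DecidableInTime k T) →
      ∀ᶠ n : ℕ in atTop, (n : ℝ) ^ (c * k) ≤ (T n : ℝ) := by
  obtain ⟨c, hc, k₀, h⟩ := lowerBound
  refine ⟨c / 2, by positivity, max k₀ 1, fun k hk T hT => ?_⟩
  have hk0 : (0 : ℝ) < k := by exact_mod_cast (le_of_max_le_right hk : 1 ≤ k)
  have h4 : Tendsto (fun n : ℕ => (n : ℝ) ^ (c / 2 * k)) atTop atTop :=
    (tendsto_rpow_atTop (by positivity)).comp tendsto_natCast_atTop_atTop
  have key : ∀ᶠ n : ℕ in atTop, (n : ℝ) ^ (c * k) ≤ (T n : ℝ) + 1 := by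
    rcases hT with ⟨A, hA, rfl⟩ | hT
    · filter_upwards [h k (le_of_max_le_left hk) _ (decidable_of_decides hA)] with n hn
      exact_mod_cast hn
    · filter_upwards [h k (le_of_max_le_left hk) _ hT] with n hn
      linarith
  filter_upwards [key, h4.eventually_ge_atTop 2, eventually_ge_atTop 1] with n h1 h2 h3
  have hn : (0 : ℝ) < n := by exact_mod_cast h3
  have h5 : (n : ℝ) ^ (c * k) = (n : ℝ) ^ (c / 2 * k) * (n : ℝ) ^ (c / 2 * k) := by
    rw [← Real.rpow_add hn]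
    congr 1
    ring
  nlinarith

theorem noSub : ¬ ∃ g : ℕ → ℝ, g =o[atTop] (fun k : ℕ => (k : ℝ)) ∧
    ∀ k : ℕ, 2 ≤ k → ∃ T : ℕ → ℕ,
      ((∃ A : TM, A.Decides k ∧ T = A.worst) ∨ DecidableInTime k T) ∧
      (fun n : ℕ => (T n : ℝ)) =O[atTop] (fun n : ℕ => (n : ℝ) ^ g k) := by
  obtain ⟨c, hc, k₀, h⟩ := lower
  rintro ⟨g, hg, hall⟩
  have h1 : ∀ᶠ k : ℕ in atTop, ‖g k‖ ≤ c / 2 * ‖(k : ℝ)‖ := hg.def (by positivity)
  obtain ⟨k, hk, hk1, hk2⟩ :=
    (h1.and ((eventually_ge_atTop k₀).and (eventually_ge_atTop 2))).exists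
  obtain ⟨T, hA, hT⟩ := hall k hk2
  obtain ⟨B, hB0, hB⟩ := hT.exists_pos
  have hkpos : (0 : ℝ) < k := by exact_mod_cast (by omega : 0 < k)
  have hgk : g k ≤ c * k / 2 := by
    have := (Real.le_norm_self (g k)).trans hk
    rw [Real.norm_of_nonneg hkpos.le] at this
    linarith
  have h4 : Tendsto (fun n : ℕ => (n : ℝ) ^ (c * k / 2)) atTop atTop :=
    (tendsto_rpow_atTop (by positivity)).comp tendsto_natCast_atTop_atTop
  obtain ⟨n, h5, h6, h7, h8⟩ := ((h4.eventually_gt_atTop B).and ((h k hk1 T hA).and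
    (hB.bound.and (eventually_ge_atTop 1)))).exists
  have hn1 : (1 : ℝ) ≤ n := by exact_mod_cast h8
  rw [Real.norm_of_nonneg (Nat.cast_nonneg _), Real.norm_of_nonneg (by positivity)] at h7
  have h9 := Real.rpow_le_rpow_of_exponent_le hn1 hgk
  have h10 : (n : ℝ) ^ (c * k) = (n : ℝ) ^ (c * k / 2) * (n : ℝ) ^ (c * k / 2) := by
    rw [← Real.rpow_add (by linarith), add_halves]
  nlinarith

theorem isBigO_of_le {T : ℕ → ℕ} {D m : ℕ} (h : ∀ n, T n ≤ D * (n + 2) ^ m) :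
    (fun n : ℕ => (T n : ℝ)) =O[atTop] (fun n : ℕ => (n : ℝ) ^ m) := by
  refine Asymptotics.IsBigO.of_bound (D * 3 ^ m) ?_
  filter_upwards [eventually_ge_atTop 1] with n hn
  rw [Real.norm_of_nonneg (Nat.cast_nonneg _), Real.norm_of_nonneg (by positivity)]
  have h1 : T n ≤ D * 3 ^ m * n ^ m := by
    rw [mul_assoc, ← mul_pow]
    exact (h n).trans (Nat.mul_le_mul_left _ (Nat.pow_le_pow_left (by omega) m))
  exact_mod_cast h1

end Vale.Agent.P310T
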