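import Vale.Agent.P310T.Loop
import Vale.Agent.P310T.Low
import Vale.Agent.P310T43.Cor
import Vale.Agent.P310T43.FromProg

/-! The upper bound `n ^ O(k)` for tape machines and for stack machines. -/

set_option linter.all false

namespace Vale.Agent.P310T

open Function Filter Turing Vale.Agent.P310 Vale.Agent.P310Z Vale.Agent.Lib.PolyTime

theorem tup_eq (n k : ℕ) : tup n k = P310T43.tup n k := by
  induction k with
  | zero => rfl
  | succ k ih => rw [tup, ih]; rfl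

theorem upper : ∃ C : ℕ, ∀ k : ℕ, 2 ≤ k →
    (∃ A : TM, A.Decides k ∧
      (fun n : ℕ => (A.worst n : ℝ)) =O[atTop] (fun n : ℕ => (n : ℝ) ^ (C * k))) ∧
    ∃ (A : FinTM2) (inp : Bool → A.Γ A.k₀) (yes : A.Γ A.k₁) (T : ℕ → ℕ),
      DecidesWL A inp yes k T ∧
        (fun n : ℕ => (T n : ℝ)) =O[atTop] (fun n : ℕ => (n : ℝ) ^ (C * k)) := by
  obtain ⟨C, hC⟩ := exists_prog P310T43.pt_dec
  refine ⟨C, fun k hk => ?_⟩
  obtain ⟨p, D, hp⟩ := hC k hk
  have hrun : ∀ (n : ℕ) (G H : SimpleGraph (Fin n)), ∃ σ,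
      Runs ∅ p (start (inputWord G H) []) (D * (n + 2) ^ (C * k)) σ ∧
        ((σ 1).head? = some true ↔ WLEquiv k G H) := fun n G H => by
    obtain ⟨σ, r, hσ⟩ := hp n _ (length_inputWord G H)
    exact ⟨σ, r, by rw [hσ, tup_eq, P310T43.dec_spec]⟩
  have h1 : ∀ n : ℕ, 1 ≤ (n + 2) ^ (C * k) := fun n => Nat.one_le_pow _ _ (by omega)
  constructor
  · obtain ⟨A, hA⟩ := P310T43.exists_tm p
    refine ⟨A, fun n G H => ?_, isBigO_of_le (D := 3 * D + 3) fun n => worst_le fun G H => ?_⟩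
    · obtain ⟨σ, r, hσ⟩ := hrun n G H
      obtain ⟨s, -, e1, e2⟩ := hA _ _ σ r
      exact ⟨s, e1, e2.trans hσ⟩
    · obtain ⟨σ, r, -⟩ := hrun n G H
      obtain ⟨s, hs, e1, -⟩ := hA _ _ σ r
      refine (time_spec e1).1.trans (hs.trans ?_)
      have := h1 n
      rw [add_mul, mul_assoc]
      omega
  · obtain ⟨A, inp, yes, hA⟩ := exists_tm2 p
    refine ⟨A, inp, yes, fun n => 2 * D * (n + 2) ^ (C * k), fun n G H => ?_,
      isBigO_of_le (D := 2 * D) fun n => le_rfl⟩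
    obtain ⟨σ, r, hσ⟩ := hrun n G H
    obtain ⟨s, hs, c, e1, e2, e3⟩ := hA _ _ σ r
    exact ⟨s, hs.trans (mul_assoc _ _ _).ge, c, e1, e2, e3.trans hσ⟩

end Vale.Agent.P310T
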