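import Vale.Agent.P310T.Defs

/-! Simulation of tape machines by stack machines (two stacks for each tape). -/

set_option linter.all false

namespace Vale.Agent.P310T

open Function Turing Vale.Agent.P310

section Rep

variable {S : Type}

/-- the pair of stacks `P` represents the tape `f` with the head at `h` -/
structure Rep (ow : Bool) (bl : S) (P : List S × List S) (f : ℤ → S) (h : ℤ) : Prop where
  right : ∀ j : ℕ, f (h + j) = P.2.getD j bl
  left : ∀ j : ℕ, f (h - 1 - j) = P.1.getD j bl
  pos : ow = true → h = P.1.length

/-- writing and moving, on the pair of stacks -/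
def upd (ow : Bool) (bl : S) (a : S × Move) (P : List S × List S) : List S × List S :=
  match a.2 with
  | .right => (a.1 :: P.1, P.2.tail)
  | .stay => (P.1, a.1 :: P.2.tail)
  | .left => (P.1.tail, bif P.1.head?.isNone && ow then a.1 :: P.2.tail
      else P.1.head?.getD bl :: a.1 :: P.2.tail)

theorem getD_tail (l : List S) (j : ℕ) (bl : S) : l.tail.getD j bl = l.getD (j + 1) bl := by
  cases l <;> simp

theorem Rep.upd {ow : Bool} {bl : S} {P : List S × List S} {f : ℤ → S} {h : ℤ}
    (r : Rep ow bl P f h) (a : S × Move) :
    Rep ow bl (upd ow bl a P) (update f h a.1) (a.2.app ow h) := by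
  obtain ⟨b, m⟩ := a
  obtain ⟨L, R⟩ := P
  have hr : ∀ j : ℕ, update f h b (h + j) = (b :: R.tail).getD j bl := fun j => by
    cases j with
    | zero => simp
    | succ j =>
      rw [update_of_ne (by push_cast; omega), r.right, List.getD_cons_succ, getD_tail]
  have hl : ∀ j : ℕ, update f h b (h - 1 - j) = L.getD j bl := fun j => by
    rw [update_of_ne (by omega), r.left]
  cases m with
  | stay => exact ⟨hr, hl, r.pos⟩
  | right =>
    refine ⟨fun j => ?_, fun j => ?_, fun h1 => ?_⟩
    · have := hr (j + 1)
      rw [List.getD_cons_succ] at this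
      show update f h b (h + 1 + j) = R.tail.getD j bl
      rw [← this]; congr 1; push_cast; ring
    · show update f h b (h + 1 - 1 - j) = (b :: L).getD j bl
      cases j with
      | zero => simp
      | succ j =>
        rw [List.getD_cons_succ, ← hl]; congr 1; push_cast; ring
    · have := r.pos h1
      show h + 1 = ((b :: L).length : ℕ)
      simp only [List.length_cons] at this ⊢
      push_cast; omega
  | left =>
    by_cases hc : ow = true ∧ h = 0
    · have hL : L = [] := by
        have := r.pos hc.1
        rw [hc.2] at this
        exact List.length_eq_zero_iff.1 (by exact_mod_cast this.symm)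
      subst hL
      have e1 : Move.app ow .left h = h := if_pos hc
      have e2 : P310T.upd ow bl (b, Move.left) ([], R) = ([], b :: R.tail) := by
        simp [P310T.upd, hc.1]
      rw [e1, e2]
      exact ⟨hr, hl, r.pos⟩
    · have e1 : Move.app ow .left h = h - 1 := if_neg hc
      have e2 : P310T.upd ow bl (b, Move.left) (L, R) =
          (L.tail, L.head?.getD bl :: b :: R.tail) := by
        have : (L.head?.isNone && ow) = false := by
          cases L with
          | cons c L => rfl
          | nil =>
            cases ow with
            | false => rfl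
            | true => exact absurd ⟨rfl, by simpa using r.pos rfl⟩ hc
        simp only [P310T.upd, this, cond_false]
      rw [e1, e2]
      refine ⟨fun j => ?_, fun j => ?_, fun h1 => ?_⟩
      · cases j with
        | zero =>
          have := hl 0
          simp only [Nat.cast_zero, sub_zero, add_zero, List.getD_cons_zero] at this ⊢
          rw [this]
          cases L <;> rfl
        | succ j =>
          rw [List.getD_cons_succ, ← hr]; congr 1; push_cast; ring
      · rw [getD_tail, ← hl]; congr 1; push_cast; ring
      · have h2 := r.pos h1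
        cases L with
        | nil => exact absurd ⟨h1, by simpa using h2⟩ hc
        | cons c L =>
          simp only [List.length_cons, List.tail_cons] at h2 ⊢
          push_cast at h2; omega

end Rep

variable (A : TM)

/-- the stacks: one for the output, two for each tape -/
abbrev Kk : Type := Option (A.Tape × Bool)

/-- the finite memory of the stack machine -/
abbrev Sg : Type := A.State × (A.Tape → A.Sym) × Option A.Sym

/-- statements -/
abbrev St : Type := TM2.Stmt (fun _ : Kk A => A.Sym) Unit (Sg A)

/-- the stacks from the pairs -/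
def mk (P : A.Tape → List A.Sym × List A.Sym) (o : List A.Sym) : ∀ _ : Kk A, List A.Sym
  | none => o
  | some (i, false) => (P i).1
  | some (i, true) => (P i).2

variable {A}

open Classical in
theorem mk_upd_r (P : A.Tape → List A.Sym × List A.Sym) (o : List A.Sym) (i : A.Tape)
    (w : List A.Sym) : update (mk A P o) (some (i, true)) w = mk A (update P i ((P i).1, w)) o := by
  funext k
  rcases k with _ | ⟨j, _ | _⟩
  · simp [mk]
  · rcases eq_or_ne j i with rfl | h
    · simp [mk]
    · simp [mk, h]
  · rcases eq_or_ne j i with rfl | h
    · simp [mk]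
    · simp [mk, h]

open Classical in
theorem mk_upd_l (P : A.Tape → List A.Sym × List A.Sym) (o : List A.Sym) (i : A.Tape)
    (w : List A.Sym) : update (mk A P o) (some (i, false)) w = mk A (update P i (w, (P i).2)) o := by
  funext k
  rcases k with _ | ⟨j, _ | _⟩
  · simp [mk]
  · rcases eq_or_ne j i with rfl | h
    · simp [mk]
    · simp [mk, h]
  · rcases eq_or_ne j i with rfl | h
    · simp [mk]
    · simp [mk, h]

open Classical in
/-- read the symbols under the heads -/
noncomputable def rd : List A.Tape → St A → St A
  | [], c => c
  | i :: l, c => .peek (some (i, true))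
      (fun v o => (v.1, update v.2.1 i (o.getD A.blank), v.2.2)) (rd l c)

open Classical in
theorem rd_spec (l : List A.Tape) (c : St A) (v : Sg A) (P : A.Tape → List A.Sym × List A.Sym)
    (o : List A.Sym) : TM2.stepAux (rd l c) v (mk A P o) = TM2.stepAux c
      (v.1, fun i => if i ∈ l then (P i).2.getD 0 A.blank else v.2.1 i, v.2.2) (mk A P o) := by
  induction l generalizing v with
  | nil => simp [rd]
  | cons i l ih =>
    rw [rd, TM2.stepAux, ih]
    congr 3
    funext j
    by_cases h1 : j ∈ l
    · simp [h1]
    · rcases eq_or_ne j i with rfl | h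
      · simp only [h1, if_false, update_self, List.mem_cons, true_or, if_true, mk]
        cases (P j).2 <;> rfl
      · simp [h1, h]

/-- is the move a move to the right -/
def Move.isR : Move → Bool
  | .right => true
  | _ => false

/-- is the move a move to the left -/
def Move.isL : Move → Bool
  | .left => true
  | _ => false

/-- write and move -/
def wr (a : A.State → (A.Tape → A.Sym) → A.Tape → A.Sym × Move) : List A.Tape → St A → St A
  | [], c => c
  | i :: l, c => .pop (some (i, true)) (fun v _ => v) <|
      .branch (fun v => (a v.1 v.2.1 i).2.isR)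
        (.push (some (i, false)) (fun v => (a v.1 v.2.1 i).1) (wr a l c)) <|
      .push (some (i, true)) (fun v => (a v.1 v.2.1 i).1) <|
      .branch (fun v => (a v.1 v.2.1 i).2.isL)
        (.pop (some (i, false)) (fun v o => (v.1, v.2.1, o)) <|
          .branch (fun v => v.2.2.isNone && A.oneWay) (wr a l c)
            (.push (some (i, true)) (fun v => v.2.2.getD A.blank) (wr a l c)))
        (wr a l c)

open Classical in
theorem wr_spec (a : A.State → (A.Tape → A.Sym) → A.Tape → A.Sym × Move) (l : List A.Tape)
    (hl : l.Nodup) (c : St A) (q : A.State) (r : A.Tape → A.Sym) (t : Option A.Sym)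
    (P : A.Tape → List A.Sym × List A.Sym) (o : List A.Sym) :
    ∃ t', TM2.stepAux (wr a l c) (q, r, t) (mk A P o) = TM2.stepAux c (q, r, t')
      (mk A (fun i => if i ∈ l then upd A.oneWay A.blank (a q r i) (P i) else P i) o) := by
  induction l generalizing t P with
  | nil => exact ⟨t, by simp [wr]⟩
  | cons i l ih =>
    obtain ⟨hi, hl⟩ := List.nodup_cons.1 hl
    have key : ∃ t₁, TM2.stepAux (wr a (i :: l) c) (q, r, t) (mk A P o) =
        TM2.stepAux (wr a l c) (q, r, t₁)
          (mk A (update P i (upd A.oneWay A.blank (a q r i) (P i))) o) := by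
      rcases e : a q r i with ⟨b, _ | _ | _⟩
      · refine ⟨(P i).1.head?, ?_⟩
        cases e2 : ((P i).1.head?.isNone && A.oneWay) <;>
        simp only [wr, TM2.stepAux, e, Move.isR, Move.isL, cond_true, cond_false, mk_upd_r,
          mk_upd_l, mk, update_self, update_idem, upd, e2]
      · refine ⟨t, ?_⟩
        simp only [wr, TM2.stepAux, e, Move.isR, Move.isL, cond_true, cond_false, mk_upd_r,
          mk_upd_l, mk, update_self, update_idem, upd]
      · refine ⟨t, ?_⟩
        simp only [wr, TM2.stepAux, e, Move.isR, Move.isL, cond_true, cond_false, mk_upd_r,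
          mk_upd_l, mk, update_self, update_idem, upd]
    obtain ⟨t₁, e₁⟩ := key
    obtain ⟨t₂, e₂⟩ := ih hl t₁ (update P i (upd A.oneWay A.blank (a q r i) (P i)))
    refine ⟨t₂, ?_⟩
    rw [e₁, e₂]
    congr 2
    funext j
    rcases eq_or_ne j i with rfl | h
    · simp [hi]
    · simp [h]

open Classical in
/-- the statement which simulates one step -/
noncomputable def prog (A : TM) (l : List A.Tape) : St A :=
  rd l <| .branch (fun v => (A.step v.1 v.2.1).isNone)
    (.push none (fun v => A.bit (decide (v.1 ∈ A.accept))) .halt)
    (wr (fun q r i => ((A.step q r).map fun p => p.2 i).getD (A.blank, .stay)) l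
      (.load (fun v => (((A.step v.1 v.2.1).map Prod.fst).getD v.1, v.2.1, v.2.2))
        (.goto fun _ => ())))

/-- the pairs of stacks represent the configuration -/
def RepC (P : A.Tape → List A.Sym × List A.Sym) (c : A.Conf) : Prop :=
  ∀ i, Rep A.oneWay A.blank (P i) (c.tape i) (c.head i)

theorem RepC.read {P : A.Tape → List A.Sym × List A.Sym} {c : A.Conf} (h : RepC P c) :
    (fun i => (P i).2.getD 0 A.blank) = fun i => c.tape i (c.head i) := by
  funext i
  rw [← (h i).right 0]
  simp

open Classical in
theorem prog_halt {l : List A.Tape} (hl : ∀ i, i ∈ l) {P : A.Tape → List A.Sym × List A.Sym}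
    {c : A.Conf} (h : RepC P c) (hc : A.act c = none) (r : A.Tape → A.Sym) (t : Option A.Sym) :
    ∃ v S, TM2.stepAux (prog A l) (c.state, r, t) (mk A P []) = ⟨none, v, S⟩ ∧
      S none = [A.bit (decide (c.state ∈ A.accept))] := by
  have hc' : A.step c.state (fun i => c.tape i (c.head i)) = none := hc
  rw [prog, rd_spec]
  simp only [hl, if_true, h.read, TM2.stepAux, hc', Option.isNone_none, cond_true]
  exact ⟨_, _, rfl, by simp [mk]⟩

open Classical in
theorem prog_step {l : List A.Tape} (hl : ∀ i, i ∈ l) (hn : l.Nodup)
    {P : A.Tape → List A.Sym × List A.Sym} {c : A.Conf} (h : RepC P c) (hc : A.act c ≠ none)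
    (r : A.Tape → A.Sym) (t : Option A.Sym) :
    ∃ r' t' P', TM2.stepAux (prog A l) (c.state, r, t) (mk A P []) =
      ⟨some (), ((A.next c).state, r', t'), mk A P' []⟩ ∧ RepC P' (A.next c) := by
  obtain ⟨⟨q, a⟩, e⟩ := Option.ne_none_iff_exists'.1 hc
  have e' : A.step c.state (fun i => c.tape i (c.head i)) = some (q, a) := e
  rw [prog, rd_spec]
  simp only [hl, if_true, h.read, TM2.stepAux, e', Option.isNone_some, cond_false]
  obtain ⟨t', e₂⟩ := wr_spec
    (fun q r i => ((A.step q r).map fun p => p.2 i).getD (A.blank, .stay)) l hn
    (.load (fun v => (((A.step v.1 v.2.1).map Prod.fst).getD v.1, v.2.1, v.2.2))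
      (.goto fun _ => ())) c.state (fun i => c.tape i (c.head i)) t P []
  rw [e₂]
  simp only [TM2.stepAux, e', hl, if_true, Option.map_some, Option.getD_some]
  refine ⟨fun i => c.tape i (c.head i), t', fun i => upd A.oneWay A.blank (a i) (P i), ?_,
    fun i => ?_⟩
  · simp only [TM.next, e]
  · simp only [TM.next, e]
    exact (h i).upd (a i)

open Classical in
/-- A tape machine is simulated by a stack machine, step by step. -/
theorem exists_stack (A : TM) : ∃ (B : FinTM2) (inp : Bool → B.Γ B.k₀) (yes : B.Γ B.k₁),
    ∀ (w : List Bool) (t : ℕ), A.act (A.conf w t) = none → (∀ s < t, A.act (A.conf w s) ≠ none) →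
      ∃ c : B.Cfg, stepsFrom B (initList B (w.map inp)) (t + 1) = some c ∧ c.l = none ∧
        ((c.stk B.k₁).head? = some yes ↔ (A.conf w t).state ∈ A.accept) := by
  have := A.finSym
  have := A.finTape
  have := A.finState
  let _ := Fintype.ofFinite A.Sym
  let _ := Fintype.ofFinite A.Tape
  let _ := Fintype.ofFinite A.State
  let l : List A.Tape := Finset.univ.toList
  have hl : ∀ i, i ∈ l := fun i => Finset.mem_toList.2 (Finset.mem_univ i)
  have hn : l.Nodup := Finset.nodup_toList _
  let B : FinTM2 :=
    { K := Kk A
      k₀ := some (A.inp, true)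
      k₁ := none
      Γ := fun _ => A.Sym
      Λ := Unit
      main := ()
      σ := Sg A
      initialState := (A.start, fun _ => A.blank, none)
      m := fun _ => prog A l }
  refine ⟨B, A.bit, A.bit true, fun w t ht hlt => ?_⟩
  have key : ∀ s ≤ t, ∃ r u P, stepsFrom B (initList B (w.map A.bit)) s =
      some ⟨some (), ((A.conf w s).state, r, u), mk A P []⟩ ∧ RepC P (A.conf w s) := by
    intro s
    induction s with
    | zero =>
      intro _
      refine ⟨fun _ => A.blank, none,
        fun i => ([], if i = A.inp then w.map A.bit else []), ?_, fun i => ⟨?_, ?_, ?_⟩⟩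
      · rw [stepsFrom]
        unfold initList
        congr 2
        funext k
        rcases k with _ | ⟨j, _ | _⟩
        · simp [B, mk]
        · simp [B, mk]
        · by_cases hj : j = A.inp
          · subst hj
            simp [B, mk]
          · simp [B, mk, hj]
      · intro j
        by_cases hi : i = A.inp
        · simp [TM.conf, TM.init, hi, List.getD_eq_getElem?_getD]
        · simp [TM.conf, TM.init, hi]
      · intro j
        have : ¬ (0 : ℤ) ≤ 0 - 1 - j := by omega
        simp only [TM.conf, TM.init, iterate_zero, id, this, and_false, if_false]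
        rfl
      · intro _
        rfl
    | succ s ih =>
      intro hs
      obtain ⟨r, u, P, e, hP⟩ := ih (by omega)
      obtain ⟨r', u', P', e', hP'⟩ := prog_step hl hn hP (hlt s (by omega)) r u
      have e2 : A.conf w (s + 1) = A.next (A.conf w s) := iterate_succ_apply' _ _ _
      refine ⟨r', u', P', ?_, e2 ▸ hP'⟩
      rw [stepsFrom, e, e2, ← e']
      rfl
  obtain ⟨r, u, P, e, hP⟩ := key t le_rfl
  obtain ⟨v, S, e', hS⟩ := prog_halt hl hP ht r u
  refine ⟨⟨none, v, S⟩, ?_, rfl, ?_⟩
  · rw [stepsFrom, e, ← e']
    rfl
  · show (S none).head? = some (A.bit true) ↔ _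
    rw [hS]
    simp [A.bit_inj.eq_iff]

end Vale.Agent.P310T
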